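import Vale.Agent.P354CB.Ez

/-!
BASE: two developments are identified near a common point of their slices.
-/

open scoped ContDiff
open Set Filter Topology

namespace Vale.Agent.P354CB62

open Vale.Agent.P354n
open Vale.Agent.P354I (X Dat)
open Vale.Agent.P354J (PDy)
open Vale.Agent.P354RC
open Vale.Agent.P354XJ
open Vale.Agent.P354YC (GU iso_iff Is)
open Vale.Agent.P354CB

/-- The local isometry near a common point of the slices. -/
theorem loc (hG : GU) (K : LK1) {d : Dat} (hd : PDy d) (A B : LD d) {y : X} (hA : y ∈ A.O)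
    (hB : y ∈ B.O) : ∃ χ : A.N.pt → B.N.pt, (∀ᶠ x in 𝓝 (A.j y), LM χ x) ∧
      ∀ᶠ z in 𝓝 y, z ∈ B.O ∧ χ (A.j z) = B.j z := by
  have sA := A.h.gh.st
  have sB := B.h.gh.st
  obtain ⟨e, he⟩ := A.N.cover (A.j y)
  obtain ⟨e', he'⟩ := B.N.cover (B.j y)
  have ev := (B.h.cont hB).eventually (on_nhds he')
  have eB : ∀ᶠ z in 𝓝 y, z ∈ B.O := B.h.op.mem_nhds hB
  obtain ⟨O, O1, O2, O3⟩ := _root_.eventually_nhds_iff.1
    ((((A.h.cont hA).eventually (on_nhds he)).and (A.h.op.mem_nhds hA)).and (ev.and eB))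
  have iA := fun z k => A.h.ind z (O1 z k).1.2 e (O1 z k).1.1
  have iB := fun z k => B.h.ind z (O1 z k).2.2 e' (O1 z k).2.1
  obtain ⟨W, ψ, a1, a2, P, o, a3⟩ := hG (A.N.g e) (B.N.g e') (tgt e) (tgt e') (A.N.X e)
    (B.N.X e') (fun z => co e (A.j z)) (fun z => co e' (B.j z)) d O (sA.lor e) (sB.lor e') hd O2
    (fun z k => A.h.nz (O1 z k).1.2) (fun z k => (iA z k).1.contDiffWithinAt)
    (fun z k => (iB z k).1.contDiffWithinAt) (fun z k => co_mem (O1 z k).1.1)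
    (fun z k => co_mem (O1 z k).2.1) (fun z k => ⟨(iA z k).2, (iB z k).2⟩) y O3
  rw [← a3.self_of_nhds] at o
  have s := p_at P a1
  have c := g_cont sB.sp (p := ψ) (a := fun p => fderiv ℝ ψ p (A.N.X e p))
    (b := fun p => B.N.X e' (ψ p)) (P.maps a1) s.continuousAt ((at_fd s).continuousAt.clm_apply
      ((sA.lor e).cont.continuousAt ((isOpen_tgt e).mem_nhds (a2 a1))))
    (((sB.lor e').cont.continuousAt ((isOpen_tgt e').mem_nhds (P.maps a1))).comp s.continuousAt)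
  refine ⟨fun x => inv e' (ψ (co e x)), ?_, (a3.and (ev.and eB)).mono fun z k =>
    ⟨k.2.2, (congrArg _ k.1).trans (inv_co k.2.1)⟩⟩
  filter_upwards [on_nhds he, (co_cont he).eventually (P.open'.mem_nhds a1),
    (co_cont he).eventually (c.eventually (gt_mem_nhds o))] with x k0 k1 k2
  refine K.chart sA sB (((inv_cont (P.maps k1)).comp (p_at P k1).continuousAt).comp (co_cont k0))
    k0 (inv_mem (P.maps k1)) (iso_iff.2 (P354YC.Is.congr ⟨p_at P k1, P.eq _ k1, k2⟩ ?_))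
  filter_upwards [P.open'.mem_nhds k1] with p k
  rw [co_inv (a2 k), co_inv (P.maps k)]

theorem base (hG : GU) (Z : L0) : BASE := fun d hd A B y hA hB => by
  obtain ⟨χ, a, b⟩ := loc hG Z.k1 hd A B hA hB
  have c := (continuous_subtype_val.continuousAt (x := (⟨y, hA⟩ : A.O))).eventually b
  rw [A.h.emb.nhds_eq_comap, eventually_comap] at c
  obtain ⟨U, U1, U2, U3⟩ := (Z.l2.g3 A.N A.S (Z.l2.ac d A.O A.N A.j hd A.h)).base (A.j y)
    ⟨y, hA, rfl⟩ _ (a.and c)
  exact ⟨U, χ, ⟨U2, fun x k => (U1 k).1, fun z m k => (U1 k).2 ⟨z, m⟩ rfl⟩, U3,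
    b.self_of_nhds.2⟩

end Vale.Agent.P354CB62
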